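import Vale.Agent.P157.Full.Defs
import Vale.Agent.P157.Parisi.Site.Levels
import Vale.Agent.P157.Parisi.Main.Energy
import Vale.Agent.P157.RSPattern

/-!
The pattern part and the pressure are Lipschitz in the potential for the Gaussian `L¹` norm.
-/

noncomputable section

open MeasureTheory ProbabilityTheory
open scoped BigOperators

namespace Vale.Agent.P157.Parisi.Full.Extend

open Vale.Agent.P157.Parisi.Site (Grow level_add_const integral_level_sub_le spread)
open Vale.Agent.P168.Cascade (Exps)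

/-- A bounded Borel function. -/
structure Bd (A : ℝ) (φ : ℝ → ℝ) : Prop where
  meas : Measurable φ
  bound : ∀ x, |φ x| ≤ A

variable {A : ℝ} {φ ψ f g : ℝ → ℝ} {m δ : ℝ}

lemma Bd.integrable (h : Bd A φ) (μ : Measure ℝ) [IsFiniteMeasure μ] : Integrable φ μ :=
  integrable_of_abs_le h.meas h.bound

lemma Bd.integrable_exp (h : Bd A φ) (hm : 0 ≤ m) (a x : ℝ) :
    Integrable (fun η => Real.exp (m * φ (x + a * η))) (gaussianReal 0 1) :=
  integrable_exp_of_abs_le (K := m * A) ((h.meas.comp (by fun_prop)).const_mul m) fun η => by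
    rw [abs_mul, abs_of_nonneg hm]; exact mul_le_mul_of_nonneg_left (h.bound _) hm

lemma Bd.layer (h : Bd A φ) (hm : 0 < m) : Bd A (layer m δ φ) where
  meas := by
    have hM : Measurable fun p : ℝ × ℝ => Real.exp (m * φ (p.1 + Real.sqrt δ * p.2)) :=
      ((h.meas.comp (by fun_prop)).const_mul m).exp
    exact (hM.stronglyMeasurable.integral_prod_right'
      (ν := gaussianReal 0 1)).measurable.log.const_mul _
  bound x := by
    have h1 := abs_lint_le (π := gaussianReal 0 1)
      (G := fun η => m * φ (x + Real.sqrt δ * η)) (K := m * A)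
      ((h.meas.comp (by fun_prop)).const_mul m) fun η => by
        rw [abs_mul, abs_of_pos hm]; exact mul_le_mul_of_nonneg_left (h.bound _) hm.le
    rw [Vale.Agent.P157.Parisi.layer, abs_mul, abs_of_pos (one_div_pos.2 hm),
      one_div_mul_eq_div, div_le_iff₀ hm, mul_comm A]
    exact h1

lemma topMean_eq_layer (f : ℝ → ℝ) (δ : ℝ) :
    topMean f δ = Vale.Agent.P157.Parisi.layer 1 δ f := by
  funext x; simp [topMean, Vale.Agent.P157.Parisi.layer]

lemma Bd.topMean (h : Bd A f) : Bd A (topMean f δ) := topMean_eq_layer f δ ▸ h.layer one_pos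

lemma Bd.level : ∀ {r : ℕ} {m : Fin r → ℝ}, (∀ i, 0 < m i) → ∀ (q : Fin (r + 1) → ℝ) {φ : ℝ → ℝ},
    Bd A φ → Bd A (level m q φ 0)
  | 0, _, _, _, _, h => h
  | r + 1, m, hm, q, _, h => (Bd.level (m := Fin.tail m) (fun i => hm _) (Fin.tail q) h).layer (hm 0)

lemma layer_mono (hm : 0 < m) (h : Bd A φ) (h' : Bd A ψ) (hle : ∀ x, φ x ≤ ψ x) (x : ℝ) :
    Vale.Agent.P157.Parisi.layer m δ φ x ≤ Vale.Agent.P157.Parisi.layer m δ ψ x := by
  refine mul_le_mul_of_nonneg_left (Real.log_le_log
    (integral_exp_pos (h.integrable_exp hm.le _ _)) ?_) (one_div_nonneg.2 hm.le)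
  exact integral_mono (h.integrable_exp hm.le _ _) (h'.integrable_exp hm.le _ _) fun η =>
    Real.exp_le_exp.2 (mul_le_mul_of_nonneg_left (hle _) hm.le)

lemma level_mono : ∀ {r : ℕ} {m : Fin r → ℝ}, (∀ i, 0 < m i) → ∀ (q : Fin (r + 1) → ℝ)
    {φ ψ : ℝ → ℝ}, Bd A φ → Bd A ψ → (∀ x, φ x ≤ ψ x) → ∀ x, level m q φ 0 x ≤ level m q ψ 0 x
  | 0, _, _, _, _, _, _, _, hle, x => hle x
  | r + 1, m, hm, q, _, _, h, h', hle, x =>
    layer_mono (hm 0) (Bd.level (m := Fin.tail m) (fun i => hm _) (Fin.tail q) h)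
      (Bd.level (m := Fin.tail m) (fun i => hm _) (Fin.tail q) h')
      (level_mono (m := Fin.tail m) (fun i => hm _) (Fin.tail q) h h' hle) x

lemma Bd.integrable_comp (h : Bd A φ) (a : ℝ) :
    Integrable (fun η => φ (a * η)) (gaussianReal 0 1) :=
  integrable_of_abs_le (h.meas.comp (by fun_prop)) fun _ => h.bound _

lemma abs_patValue_le_of_bd {r : ℕ} {m : Fin r → ℝ} (hm : ∀ i, 0 < m i) (q : Fin (r + 1) → ℝ)
    (hf : Bd A f) : |patValue f m q| ≤ A := by
  simpa [patValue] using norm_integral_le_of_norm_le_const (μ := gaussianReal 0 1)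
    (Filter.Eventually.of_forall fun η => show ‖level m q (topMean f (1 - q (Fin.last r))) 0
      (Real.sqrt (q 0) * η)‖ ≤ A from (Bd.level hm q hf.topMean).bound _)

lemma exp_sub_exp_le (a b : ℝ) : Real.exp a - Real.exp b ≤ Real.exp a * (a - b) := by
  have h := mul_le_mul_of_nonneg_left (Real.add_one_le_exp (b - a)) (Real.exp_pos a).le
  rw [← Real.exp_add, add_sub_cancel] at h
  linarith

/-- The pattern part moves at most like the potential in `L¹`, uniformly in the path. -/
lemma patValue_sub_le {r : ℕ} {m : Fin r → ℝ} {q : Fin (r + 1) → ℝ} (hq : IsPath m q)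
    (hf : Bd A f) (hg : Bd A g) :
    patValue g m q - patValue f m q ≤
      Real.exp (2 * A) * ∫ x, |g x - f x| ∂gaussianReal 0 1 := by
  set δ := 1 - q (Fin.last r)
  have hδ : 0 ≤ δ := sub_nonneg.2 hq.le_one
  set h : ℝ → ℝ := fun x => max (f x) (g x)
  have hh : Bd A h := ⟨hf.meas.max hg.meas, fun x => by
    rcases max_cases (f x) (g x) with ⟨e, -⟩ | ⟨e, -⟩
    · simp only [h, e]; exact hf.bound x
    · simp only [h, e]; exact hg.bound x⟩
  have hG : ∀ {u : ℝ → ℝ}, Bd A u → Grow (2 * A) fun x => A + topMean u δ x := fun {u} hu =>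
    ⟨measurable_const.add hu.topMean.meas,
      fun x => by linarith [(abs_le.1 ((hu.topMean (δ := δ)).bound x)).1],
      fun x => by linarith [(abs_le.1 ((hu.topMean (δ := δ)).bound x)).2, abs_nonneg x]⟩
  have hshift : ∀ {u : ℝ → ℝ}, Bd A u → ∀ y,
      level m q (fun x => A + topMean u δ x) 0 y = A + level m q (topMean u δ) 0 y := by
    intro u hu y
    have e := level_add_const hq.pos q (hG hu) (-A) y
    simp only [neg_add_cancel_left] at e
    rw [e]; ring
  have key := integral_level_sub_le (m := m) ⟨hq.pos, hq.lt_one, hq.strictMono⟩ hq.mono hq.nonneg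
    (hG hf) (hG hh) fun y => by
      refine add_le_add le_rfl ?_
      rw [topMean_eq_layer, topMean_eq_layer]
      exact layer_mono one_pos hf hh (fun x => le_max_left _ _) y
  have hint : ∀ {u : ℝ → ℝ}, Bd A u → ∫ η, level m q (fun x => A + topMean u δ x) 0
      (Real.sqrt (q 0) * η) ∂gaussianReal 0 1 = A + patValue u m q := by
    intro u hu
    simp only [hshift hu]
    rw [integral_add (integrable_const _) ((Bd.level hq.pos q hu.topMean).integrable_comp _)]
    simp [patValue, δ]
  rw [hint hf, hint hh] at key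
  have hmono : patValue g m q ≤ patValue h m q := by
    refine integral_mono ((Bd.level hq.pos q hg.topMean).integrable_comp _)
      ((Bd.level hq.pos q hh.topMean).integrable_comp _) fun η => ?_
    refine level_mono hq.pos q hg.topMean hh.topMean (fun x => ?_) _
    rw [topMean_eq_layer, topMean_eq_layer]
    exact layer_mono one_pos hg hh (fun x => le_max_right _ _) x
  set D : ℝ → ℝ := fun z => Real.exp (h z) - Real.exp (f z)
  have hD : Measurable D := hh.meas.exp.sub hf.meas.exp
  have hDb : ∀ z, |D z| ≤ 2 * Real.exp A := fun z => by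
    have h1 := Real.exp_le_exp.2 ((le_abs_self _).trans (hh.bound z))
    have h2 := Real.exp_le_exp.2 ((le_abs_self _).trans (hf.bound z))
    have h3 := Real.exp_pos (h z)
    have h4 := Real.exp_pos (f z)
    exact abs_le.2 ⟨by linarith, by linarith⟩
  have e1 : ∀ y, Real.exp (A + topMean h δ y) - Real.exp (A + topMean f δ y) =
      Real.exp A * ∫ η, D (y + Real.sqrt δ * η) ∂gaussianReal 0 1 := by
    intro y
    have p : ∀ {u : ℝ → ℝ}, Bd A u →
        Integrable (fun η => Real.exp (u (y + Real.sqrt δ * η))) (gaussianReal 0 1) := fun hu => by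
      simpa using hu.integrable_exp zero_le_one (Real.sqrt δ) y
    simp only [topMean, Real.exp_add, Real.exp_log (integral_exp_pos (p hh)),
      Real.exp_log (integral_exp_pos (p hf)), D]
    rw [integral_sub (p hh) (p hf), mul_sub]
  have e2 : spread (q (Fin.last r))
      (fun y => Real.exp (A + topMean h δ y) - Real.exp (A + topMean f δ y)) 0 =
      Real.exp A * ∫ z, D z ∂gaussianReal 0 1 := by
    simp only [spread, e1, zero_add]
    rw [integral_const_mul]
    congr 1
    have hi : Integrable (fun p : ℝ × ℝ =>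
        D (Real.sqrt (q (Fin.last r)) * p.1 + Real.sqrt δ * p.2))
        ((gaussianReal 0 1).prod (gaussianReal 0 1)) :=
      integrable_of_abs_le (hD.comp (by fun_prop)) fun _ => hDb _
    rw [← integral_prod _ hi, integral_combine hD,
      Real.sq_sqrt (hq.nonneg.trans (hq.mono (Fin.zero_le _))), Real.sq_sqrt hδ]
    simp [δ]
  rw [e2] at key
  have hab : Integrable (fun z => |g z - f z|) (gaussianReal 0 1) :=
    ((hg.integrable _).sub (hf.integrable _)).abs
  have e3 : ∫ z, D z ∂gaussianReal 0 1 ≤ Real.exp A * ∫ z, |g z - f z| ∂gaussianReal 0 1 := by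
    rw [← integral_const_mul]
    refine integral_mono (integrable_of_abs_le hD hDb) (hab.const_mul _) fun z => ?_
    refine (exp_sub_exp_le _ _).trans (mul_le_mul (Real.exp_le_exp.2
      ((le_abs_self _).trans (hh.bound z))) ?_ (sub_nonneg.2 (le_max_left _ _)) (Real.exp_pos _).le)
    exact sub_le_iff_le_add.2 (max_le (by linarith [abs_nonneg (g z - f z)])
      (by linarith [le_abs_self (g z - f z)]))
  have e4 := mul_le_mul_of_nonneg_left e3 (Real.exp_pos A).le
  rw [← mul_assoc, ← Real.exp_add, ← two_mul] at e4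
  linarith

lemma abs_patValue_sub_le {r : ℕ} {m : Fin r → ℝ} {q : Fin (r + 1) → ℝ} (hq : IsPath m q)
    (hf : Bd A f) (hg : Bd A g) :
    |patValue f m q - patValue g m q| ≤
      Real.exp (2 * A) * ∫ x, |f x - g x| ∂gaussianReal 0 1 := by
  have h1 := patValue_sub_le hq hf hg
  have h2 := patValue_sub_le hq hg hf
  simp only [abs_sub_comm (g _) (f _)] at h1
  exact abs_le.2 ⟨by linarith, h2⟩

/-! ### The pressure -/

/-- The term of one pattern. -/
def patTerm {N : ℕ} (f : ℝ → ℝ) (w y : Fin N → ℝ) : ℝ := f ((∑ i, w i * y i) / Real.sqrt N)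

lemma nice_patTerm {N : ℕ} (hf : Bd A f) : Nice A (patTerm (N := N) f) :=
  ⟨hf.meas.comp (f := fun p : (Fin N → ℝ) × (Fin N → ℝ) => (∑ i, p.1 i * p.2 i) / Real.sqrt N)
    (by fun_prop), fun _ _ => hf.bound _⟩

lemma lint_sub_le {Y : Type*} [MeasurableSpace Y] {π : Measure Y} [IsProbabilityMeasure π]
    {G H : Y → ℝ} (hG : Measurable G) (hH : Measurable H) (hbG : ∀ y, |G y| ≤ A)
    (hbH : ∀ y, |H y| ≤ A) :
    lint π G - lint π H ≤ Real.exp (2 * A) * ∫ y, |G y - H y| ∂π := by
  obtain ⟨h1, -⟩ := integral_exp_mem (π := π) hH hbH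
  obtain ⟨h2, -⟩ := integral_exp_mem (π := π) hG hbG
  set a := ∫ y, Real.exp (G y) ∂π
  set b := ∫ y, Real.exp (H y) ∂π
  have hb : 0 < b := (Real.exp_pos _).trans_le h1
  have ha : 0 < a := (Real.exp_pos _).trans_le h2
  have hab : Integrable (fun y => |G y - H y|) π :=
    ((integrable_of_abs_le hG hbG).sub (integrable_of_abs_le hH hbH)).abs
  have hd : a - b ≤ Real.exp A * ∫ y, |G y - H y| ∂π := by
    rw [← integral_sub (integrable_exp_of_abs_le hG hbG) (integrable_exp_of_abs_le hH hbH),
      ← integral_const_mul]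
    refine integral_mono ((integrable_exp_of_abs_le hG hbG).sub (integrable_exp_of_abs_le hH hbH))
      (hab.const_mul _) fun y => ?_
    refine (exp_sub_exp_le _ _).trans ((mul_le_mul_of_nonneg_left (le_abs_self _)
      (Real.exp_pos _).le).trans ?_)
    exact mul_le_mul_of_nonneg_right (Real.exp_le_exp.2 ((le_abs_self _).trans (hbG y)))
      (abs_nonneg _)
  have hlog := Real.log_le_sub_one_of_pos (div_pos ha hb)
  rw [Real.log_div ha.ne' hb.ne', div_sub_one hb.ne'] at hlog
  refine hlog.trans ((div_le_iff₀ hb).2 (hd.trans ?_))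
  have hI : 0 ≤ ∫ y, |G y - H y| ∂π := integral_nonneg fun y => abs_nonneg _
  have he : Real.exp (2 * A) * Real.exp (-A) = Real.exp A := by rw [← Real.exp_add]; ring_nf
  have := mul_le_mul_of_nonneg_left h1 (mul_nonneg (Real.exp_pos (2 * A)).le hI)
  rw [mul_right_comm, he] at this
  exact this

lemma meanPressure_eq_Phi (α : ℝ) (f : ℝ → ℝ) (N : ℕ) :
    meanPressure isingLaw α f N =
      1 / (N : ℝ) * Phi (gam (Fin N)) (patTerm f) (isingLaw N) ⌊α * N⌋₊ := by
  rw [meanPressure, integral_const_mul]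
  rfl

lemma meanPressure_sub_le {α : ℝ} (hα : 0 ≤ α) (hf : Bd A f) (hg : Bd A g) (N : ℕ) :
    meanPressure isingLaw α f N - meanPressure isingLaw α g N ≤
      α * (Real.exp (2 * A) * ∫ x, |f x - g x| ∂gaussianReal 0 1) := by
  set e := Real.exp (2 * A) * ∫ x, |f x - g x| ∂gaussianReal 0 1 with hedef
  have he : 0 ≤ e := mul_nonneg (Real.exp_pos _).le (integral_nonneg fun x => abs_nonneg _)
  rcases Nat.eq_zero_or_pos N with rfl | hN
  · simpa [meanPressure_eq_Phi] using mul_nonneg hα he
  have hN' : (0 : ℝ) < N := Nat.cast_pos.2 hN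
  have hp : IsProbabilityMeasure (isingLaw N) := by
    unfold isingLaw; exact inferInstanceAs (IsProbabilityMeasure (Measure.pi fun _ => rad))
  have key : Phi (gam (Fin N)) (patTerm f) (isingLaw N) ⌊α * N⌋₊ - ⌊α * N⌋₊ * e ≤
      Phi (gam (Fin N)) (patTerm g) (isingLaw N) ⌊α * N⌋₊ := by
    refine Phi_swap_of_ae (fun y : Fin N → ℝ => ∀ i, y i ^ 2 = 1) (nice_patTerm hg)
      (nice_patTerm hf) (fun ρ _ hQ => ?_) _ _ hp ae_rad_sq
    have hF := nice_patTerm (N := N) hf
    have hG := nice_patTerm (N := N) hg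
    have hiF := hF.integrable_lint (gam (Fin N)) ρ
    have hiG := hG.integrable_lint (gam (Fin N)) ρ
    have hm : Measurable fun p : (Fin N → ℝ) × (Fin N → ℝ) =>
        |patTerm f p.1 p.2 - patTerm g p.1 p.2| := (hF.meas.sub hG.meas).abs
    have hi : Integrable (fun p : (Fin N → ℝ) × (Fin N → ℝ) =>
        |patTerm f p.1 p.2 - patTerm g p.1 p.2|) ((gam (Fin N)).prod ρ) :=
      integrable_of_abs_le (K := A + A) hm fun p => by
        rw [abs_abs]; exact (abs_sub _ _).trans (add_le_add (hF.bound _ _) (hG.bound _ _))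
    have h1 : ∫ w, lint ρ (patTerm f w) ∂gam (Fin N) - ∫ w, lint ρ (patTerm g w) ∂gam (Fin N) ≤
        Real.exp (2 * A) * ∫ w, ∫ y, |patTerm f w y - patTerm g w y| ∂ρ ∂gam (Fin N) := by
      rw [← integral_sub hiF hiG, ← integral_const_mul]
      exact integral_mono (hiF.sub hiG) (hi.integral_prod_left.const_mul _) fun w =>
        lint_sub_le (hF.meas_left w) (hG.meas_left w) (hF.bound w) (hG.bound w)
    have h2 : ∫ w, ∫ y, |patTerm f w y - patTerm g w y| ∂ρ ∂gam (Fin N) =
        ∫ x, |f x - g x| ∂gaussianReal 0 1 := by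
      have hae : ∀ᵐ y ∂ρ, ∫ w, |patTerm f w y - patTerm g w y| ∂gam (Fin N) =
          ∫ x, |f x - g x| ∂gaussianReal 0 1 := by
        filter_upwards [hQ] with y hy
        have hu : ∑ i, (y i / Real.sqrt N) ^ 2 = 1 := by
          simp [div_pow, hy, Real.sq_sqrt hN'.le, hN'.ne']
        have e1 : ∀ w : Fin N → ℝ, (∑ i, w i * y i) / Real.sqrt N =
            dot w fun i => y i / Real.sqrt N := fun w => by
          simp [dot, Finset.sum_div, mul_div_assoc]
        have e2 := integral_map (μ := gam (Fin N)) (φ := fun w => dot w fun i => y i / Real.sqrt N)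
          (f := fun x => |f x - g x|) (by unfold dot; exact Measurable.aemeasurable (by fun_prop))
          (hf.meas.sub hg.meas).abs.aestronglyMeasurable
        rw [map_dot_unit hu] at e2
        simp only [patTerm, e1]
        exact e2.symm
      rw [integral_integral_swap hi, integral_congr_ae hae]
      simp
    rw [h2, ← hedef] at h1
    linarith
  rw [meanPressure_eq_Phi, meanPressure_eq_Phi, ← mul_sub, one_div_mul_eq_div, div_le_iff₀ hN']
  have hM := mul_le_mul_of_nonneg_right (Nat.floor_le (mul_nonneg hα hN'.le)) he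
  linarith

lemma abs_meanPressure_sub_le {α : ℝ} (hα : 0 ≤ α) (hf : Bd A f) (hg : Bd A g) (N : ℕ) :
    |meanPressure isingLaw α f N - meanPressure isingLaw α g N| ≤
      α * (Real.exp (2 * A) * ∫ x, |f x - g x| ∂gaussianReal 0 1) := by
  have h1 := meanPressure_sub_le hα hf hg N
  have h2 := meanPressure_sub_le hα hg hf N
  simp only [abs_sub_comm (g _) (f _)] at h2
  exact abs_le.2 ⟨by linarith, h1⟩

end Vale.Agent.P157.Parisi.Full.Extend
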