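import Vale.Agent.P157.Full.Statements
import Vale.Agent.P157.Full.Extend.Lip
import Vale.Agent.P157.Parisi.Main.SmoothOf

/-!
From smooth potentials to bounded Borel ones.
-/

noncomputable section

open MeasureTheory ProbabilityTheory Filter
open scoped BigOperators Topology ContDiff

namespace Vale.Agent.P157.Parisi.Full.Extend

variable {α A : ℝ} {f g : ℝ → ℝ}

/-- A bounded Borel function is `L¹`-close to smooth ones with a fixed bound. -/
lemma exists_smooth_near (hf : Bd A f) {δ : ℝ} (hδ : 0 < δ) :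
    ∃ g A', Smooth g A' ∧ Bd (2 * (A + 1)) g ∧ ∫ x, |f x - g x| ∂gaussianReal 0 1 ≤ δ := by
  have hA : 0 ≤ A := (abs_nonneg _).trans (hf.bound 0)
  let b : ContDiffBump (0 : ℝ) := ⟨A + 1, 2 * (A + 1), by linarith, by linarith⟩
  set θ : ℝ → ℝ := fun t => b t * t
  have hθs : ContDiff ℝ ∞ θ := b.contDiff.mul contDiff_id
  have hθc : HasCompactSupport θ := b.hasCompactSupport.mul_right
  have hθb : ∀ t, |θ t| ≤ 2 * (A + 1) := by
    intro t
    rcases le_total (2 * (A + 1)) |t| with h | h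
    · have : b t = 0 := b.zero_of_le_dist (by simpa [b] using h)
      simp only [θ, this, zero_mul, abs_zero]
      linarith
    · rw [abs_mul, abs_of_nonneg b.nonneg]
      exact (mul_le_of_le_one_left (abs_nonneg _) b.le_one).trans h
  have hθf : ∀ x, θ (f x) = f x := fun x => by
    have : b (f x) = 1 := b.one_of_mem_closedBall (by
      simpa [b] using (hf.bound x).trans (by linarith : A ≤ A + 1))
    simp [θ, this]
  obtain ⟨L, hL⟩ := hθs.lipschitzWith_of_hasCompactSupport hθc (by simp)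
  set ε := δ / (L + 1) with hεd
  have hL1 : (0 : ℝ) < L + 1 := by positivity
  have hε : 0 < ε := div_pos hδ hL1
  obtain ⟨g₀, hgc, hgs, hg⟩ := MemLp.exist_eLpNorm_sub_le (p := 1) ENNReal.one_ne_top le_rfl
    (MemLp.of_bound (μ := gaussianReal 0 1) hf.meas.aestronglyMeasurable A
      (Eventually.of_forall hf.bound)) hε
  obtain ⟨C₀, hC₀⟩ := hgs.continuous.bounded_above_of_compact_support hgc
  have hi : Integrable (fun x => f x - g₀ x) (gaussianReal 0 1) :=
    (hf.integrable _).sub (integrable_of_abs_le hgs.continuous.measurable hC₀)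
  have hd : ∫ x, |f x - g₀ x| ∂gaussianReal 0 1 ≤ ε := by
    rw [← ENNReal.ofReal_le_ofReal_iff hε.le]
    rw [eLpNorm_one_eq_lintegral_enorm] at hg
    have e := ofReal_integral_norm_eq_lintegral_enorm hi
    simp only [Real.norm_eq_abs] at e
    rw [e]
    exact hg
  set g := θ ∘ g₀
  have hgsm : ContDiff ℝ 3 g :=
    (hθs.comp hgs).of_le (WithTop.coe_le_coe.2 (le_top (a := (3 : ℕ∞))))
  have hgcs : HasCompactSupport g := hgc.comp_left (by simp [θ])
  have hbd : ∀ j ≤ 3, ∃ C, ∀ z, |iteratedDeriv j g z| ≤ C := by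
    intro j hj
    have hc : HasCompactSupport (iteratedDeriv j g) := by
      clear hj
      induction j with
      | zero => simpa using hgcs
      | succ n ih => rw [iteratedDeriv_succ]; exact ih.deriv
    exact (hgsm.continuous_iteratedDeriv j
      (by exact_mod_cast hj)).bounded_above_of_compact_support hc
  choose! C hC using hbd
  have hb : Bd (2 * (A + 1)) g := ⟨hgsm.continuous.measurable, fun x => hθb _⟩
  refine ⟨g, ∑ j ∈ Finset.range 4, |C j|, Main.smooth_of_contDiff hgsm fun j hj z => ?_, hb, ?_⟩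
  · exact ((hC j hj z).trans (le_abs_self _)).trans
      (Finset.single_le_sum (fun i _ => abs_nonneg (C i)) (Finset.mem_range.2 (by omega)))
  · have h1 : ∀ x, |f x - g x| ≤ (L + 1) * |f x - g₀ x| := fun x => by
      have := hL.dist_le_mul (f x) (g₀ x)
      rw [hθf, Real.dist_eq, Real.dist_eq] at this
      exact this.trans (mul_le_mul_of_nonneg_right (by linarith) (abs_nonneg _))
    have h2 := integral_mono (μ := gaussianReal 0 1)
      ((hf.integrable _).sub (hb.integrable _)).abs (hi.abs.const_mul ((L : ℝ) + 1)) h1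
    rw [integral_const_mul] at h2
    refine h2.trans ?_
    calc ((L : ℝ) + 1) * ∫ x, |f x - g₀ x| ∂gaussianReal 0 1 ≤ (L + 1) * ε :=
          mul_le_mul_of_nonneg_left hd hL1.le
      _ = δ := by rw [hεd]; field_simp

lemma layer_zero {m : ℝ} (hm : 0 < m) (F : ℝ → ℝ) (x : ℝ) : layer m 0 F x = F x := by
  simp [layer, hm.ne']

lemma level_zero : ∀ {r : ℕ} {m : Fin r → ℝ}, (∀ i, 0 < m i) → ∀ (φ : ℝ → ℝ) (x : ℝ),
    level m (fun _ => (0 : ℝ)) φ 0 x = φ x
  | 0, _, _, _, _ => rfl
  | r + 1, m, hm, φ, x => by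
    show layer (m 0) ((0 : ℝ) - 0) (level (Fin.tail m) (fun _ => (0 : ℝ)) φ 0) x = φ x
    rw [sub_zero, layer_zero (hm 0)]
    exact level_zero (m := Fin.tail m) (fun i => hm _) φ x

lemma siteValue_zero {r : ℕ} {m : Fin r → ℝ} (hm : ∀ i, 0 < m i) :
    siteValue m (fun _ => (0 : ℝ)) = 0 := by
  simp [siteValue, level_zero hm]

lemma isPath_siteSlope (hS : SiteSlopeStmt) {r : ℕ} {m : Fin r → ℝ} {ρ : Fin (r + 1) → ℝ}
    (h : IsFieldPath m ρ) : IsPath m (siteSlope m ρ) :=
  ⟨h.pos, h.lt_one, h.strictMono, (hS r m ρ h).1, ((hS r m ρ h).2 0).1, ((hS r m ρ h).2 _).2⟩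

lemma fullVal_ge (hC : ConcaveStmt) (hα : 0 ≤ α) (hf : Bd A f)
    {r : ℕ} {m : Fin r → ℝ} {ρ : Fin (r + 1) → ℝ} (h : IsFieldPath m ρ) :
    -(α * A) ≤ fullVal α f m ρ := by
  have h0 := hC r m ρ (fun _ => 0) h ⟨h.pos, h.lt_one, h.strictMono, monotone_const, le_rfl⟩
  rw [siteValue_zero h.pos] at h0
  have e : ∑ p, weight m p * siteSlope m ρ p * ((fun _ => (0 : ℝ)) p - ρ p) =
      -∑ p, weight m p * ρ p * siteSlope m ρ p := by
    rw [← Finset.sum_neg_distrib]
    exact Finset.sum_congr rfl fun p _ => by ring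
  rw [e] at h0
  have hpat := mul_le_mul_of_nonneg_left
    (abs_le.1 (abs_patValue_le_of_bd h.pos (siteSlope m ρ) hf)).1 hα
  unfold fullVal
  linarith

lemma bddBelow_fullValues (hC : ConcaveStmt) (hα : 0 ≤ α) (hf : Bd A f) :
    BddBelow (fullValues α f) :=
  ⟨-(α * A), by rintro v ⟨r, m, ρ, h, rfl⟩; exact fullVal_ge hC hα hf h⟩

lemma fullValues_nonempty (α : ℝ) (f : ℝ → ℝ) : (fullValues α f).Nonempty :=
  ⟨_, 0, Fin.elim0, fun _ => 0,
    ⟨fun i => i.elim0, fun i => i.elim0, fun i => i.elim0, monotone_const, le_rfl⟩, rfl⟩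

/-- The infimum moves at most like the potential in `L¹`. -/
lemma sInf_fullValues_sub_le (hS : SiteSlopeStmt) (hC : ConcaveStmt) (hα : 0 ≤ α) (hf : Bd A f)
    (hg : Bd A g) :
    sInf (fullValues α g) - sInf (fullValues α f) ≤
      α * (Real.exp (2 * A) * ∫ x, |f x - g x| ∂gaussianReal 0 1) := by
  rw [sub_le_iff_le_add', ← sub_le_iff_le_add]
  refine le_csInf (fullValues_nonempty α f) ?_
  rintro v ⟨r, m, ρ, h, rfl⟩
  have h1 := csInf_le (bddBelow_fullValues hC hα hg) (show fullVal α g m ρ ∈ fullValues α g from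
    ⟨r, m, ρ, h, rfl⟩)
  have h2 := mul_le_mul_of_nonneg_left
    (abs_le.1 (abs_patValue_sub_le (isPath_siteSlope hS h) hf hg)).1 hα
  unfold fullVal at *
  linarith

/-- The formula passes from smooth potentials to bounded Borel ones. -/
theorem extend : ExtendStmt := by
  intro hS hC hSm α f hα hfm ⟨A, hA⟩
  have hA0 : 0 ≤ A := (abs_nonneg _).trans (hA 0)
  have hf : Bd A f := ⟨hfm, hA⟩
  refine ⟨bddBelow_fullValues hC hα.le hf, ?_⟩
  rw [Metric.tendsto_nhds]
  intro ε hε
  set B := 2 * (A + 1) with hB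
  have hfB : Bd B f := ⟨hfm, fun x => (hA x).trans (by linarith)⟩
  set K := α * Real.exp (2 * B) with hK
  have hK0 : 0 < K := mul_pos hα (Real.exp_pos _)
  obtain ⟨g, A', hgS, hg, hd⟩ := exists_smooth_near hf (show 0 < ε / (4 * K) by positivity)
  have hKd : α * (Real.exp (2 * B) * ∫ x, |f x - g x| ∂gaussianReal 0 1) ≤ ε / 4 := by
    rw [← mul_assoc, ← hK]
    refine (mul_le_mul_of_nonneg_left hd hK0.le).trans_eq ?_
    field_simp
  have hsym : ∫ x, |g x - f x| ∂gaussianReal 0 1 = ∫ x, |f x - g x| ∂gaussianReal 0 1 := by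
    simp only [abs_sub_comm]
  have i1 := (sInf_fullValues_sub_le hS hC hα.le hfB hg).trans hKd
  have i2 := sInf_fullValues_sub_le hS hC hα.le hg hfB
  rw [hsym] at i2
  filter_upwards [Metric.tendsto_nhds.1 (hSm α A' g hα hgS) (ε / 4) (by linarith)] with N hN
  rw [Real.dist_eq, abs_lt] at hN ⊢
  have hp := abs_le.1 ((abs_meanPressure_sub_le hα.le hfB hg N).trans hKd)
  constructor <;> linarith [hN.1, hN.2, hp.1, hp.2, i2.trans hKd]

end Vale.Agent.P157.Parisi.Full.Extend
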